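import Vale.Agent.P287.H583.SecRat2

/-!
A smooth cubic fourfold which contains a plane, and for which the projection from the plane has
a rational section, is rational.
-/

namespace Vale.Agent.P287.H583

open MvPolynomial Vale.Agent.P287.H674

/-- the section as six polynomials -/
noncomputable def SS (a b : Fin 3 → (Fin 6 → ℂ)) (g : MvPolynomial (Fin 3) ℂ)
    (σ : Fin 3 → MvPolynomial (Fin 3) ℂ) (l : Fin 6) : MvPolynomial (Fin 3) ℂ :=
  g * ∑ i, C (a i l) * X i + ∑ i, C (b i l) * σ i

theorem eval_SS (a b : Fin 3 → (Fin 6 → ℂ)) (g : MvPolynomial (Fin 3) ℂ)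
    (σ : Fin 3 → MvPolynomial (Fin 3) ℂ) (t : Fin 3 → ℂ) :
    (fun l => eval t (SS a b g σ l)) =
      eval t g • pt a t + pt b (fun i => eval t (σ i)) := by
  funext l
  simp only [SS, pt, Fin.sum_univ_three, map_add, map_mul, eval_C, eval_X, Pi.add_apply,
    Pi.smul_apply, smul_eq_mul]
  ring

theorem eval_pderiv_SS (a b : Fin 3 → (Fin 6 → ℂ)) (g : MvPolynomial (Fin 3) ℂ)
    (σ : Fin 3 → MvPolynomial (Fin 3) ℂ) (j : Fin 3) (t : Fin 3 → ℂ) :
    (fun l => eval t (pderiv j (SS a b g σ l))) =
      eval t (pderiv j g) • pt a t + eval t g • a j +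
        pt b (fun i => eval t (pderiv j (σ i))) := by
  funext l
  have h1 : ∀ i : Fin 3, eval t (pderiv j (C (a i l) * X i)) = if i = j then a i l else 0 := by
    intro i
    rw [pderiv_C_mul, pderiv_X, map_mul, eval_C]
    by_cases hij : i = j
    · subst hij
      simp
    · rw [Pi.single_eq_of_ne hij, if_neg hij, map_zero, mul_zero]
  have h2 : eval t (pderiv j (∑ i, C (a i l) * X i)) = a j l := by
    rw [map_sum, map_sum]
    simp only [h1]
    rw [Finset.sum_ite_eq' Finset.univ j, if_pos (Finset.mem_univ j)]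
  have h3 : ∀ i : Fin 3, eval t (pderiv j (C (b i l) * σ i)) =
      b i l * eval t (pderiv j (σ i)) := by
    intro i
    rw [pderiv_C_mul, map_mul, eval_C]
  rw [SS, map_add, map_add, pderiv_mul, map_add, map_mul, map_mul, h2, map_sum, map_sum]
  simp only [h3, pt, Fin.sum_univ_three, map_add, map_mul, eval_C, eval_X, Pi.add_apply,
    Pi.smul_apply, smul_eq_mul]
  ring

theorem tri_deriv {F : MvPolynomial (Fin 6) ℂ} (hF : F.IsHomogeneous 3)
    (a b : Fin 3 → (Fin 6 → ℂ)) (g : MvPolynomial (Fin 3) ℂ)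
    (σ : Fin 3 → MvPolynomial (Fin 3) ℂ)
    (hsec : ∀ t : Fin 3 → ℂ, eval (eval t g • pt a t + pt b (fun i => eval t (σ i))) F = 0)
    (j : Fin 3) (t : Fin 3 → ℂ) :
    tri F (eval t g • pt a t + pt b (fun i => eval t (σ i)))
      (eval t g • pt a t + pt b (fun i => eval t (σ i)))
      (eval t (pderiv j g) • pt a t + eval t g • a j +
        pt b (fun i => eval t (pderiv j (σ i)))) = 0 := by
  have h0 : aeval (SS a b g σ) F = 0 := by
    refine MvPolynomial.funext fun t => ?_
    rw [eval_aeval, eval_SS, hsec, map_zero]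
  have h1 := pderiv_aeval_eq (SS a b g σ) j F
  rw [h0, map_zero] at h1
  have h2 := congrArg (eval t) h1
  rw [map_zero, map_sum] at h2
  simp only [map_mul, eval_aeval, eval_SS, eval_pderiv_eq hF] at h2
  rw [← eval_pderiv_SS]
  generalize eval t g • pt a t + pt b (fun i => eval t (σ i)) = s at *
  have e3 : tri F s s (fun l => eval t (pderiv j (SS a b g σ l))) =
      ∑ i, eval t (pderiv j (SS a b g σ i)) * tri F s s (Pi.single i 1) := by
    rw [LinearMap.pi_apply_eq_sum_univ (tri F s s) (fun l => eval t (pderiv j (SS a b g σ l)))]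
    refine Finset.sum_congr rfl fun i _ => ?_
    rw [smul_eq_mul]
    congr 2
    funext j
    simp [Pi.single_apply, eq_comm]
  have e4 : (3 : ℂ) * tri F s s (fun l => eval t (pderiv j (SS a b g σ l))) = 0 := by
    rw [e3, Finset.mul_sum, h2]
    refine Finset.sum_congr rfl fun i _ => ?_
    ring
  rcases mul_eq_zero.mp e4 with h | h
  · norm_num at h
  · exact h

theorem RR_ne_zero {F : MvPolynomial (Fin 6) ℂ} (hF : SmoothCubic F)
    {a b : Fin 3 → (Fin 6 → ℂ)} {x y : Fin 3 → ((Fin 6 → ℂ) →ₗ[ℂ] ℂ)}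
    (hv : ∀ v : Fin 6 → ℂ, v = pt a (fun i => x i v) + pt b (fun i => y i v))
    (hx : ∀ (c d : Fin 3 → ℂ) i, x i (pt a c + pt b d) = c i)
    (t3 : ∀ c c' c'', tri F (pt b c) (pt b c') (pt b c'') = 0)
    {g : MvPolynomial (Fin 3) ℂ} {σ : Fin 3 → MvPolynomial (Fin 3) ℂ} (hg0 : g ≠ 0)
    (hsec : ∀ t : Fin 3 → ℂ, eval (eval t g • pt a t + pt b (fun i => eval t (σ i))) F = 0) :
    RR (tri F) a b g σ ≠ 0 := by
  intro hR
  obtain ⟨t, ht⟩ : ∃ t : Fin 3 → ℂ, eval t (g * X 0) ≠ 0 := by
    by_contra hcon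
    push Not at hcon
    exact mul_ne_zero hg0 (X_ne_zero 0) (MvPolynomial.funext fun t => by rw [hcon t, map_zero])
  rw [map_mul, eval_X] at ht
  have hG := left_ne_zero_of_mul ht
  have ht0 := right_ne_zero_of_mul ht
  have s1 : ∀ x y z, tri F x y z = tri F y x z := tri_comm1 F
  have s2 : ∀ x y z, tri F x y z = tri F x z y := tri_comm2 F
  have hder := fun j => tri_deriv hF.1 a b g σ hsec j t
  have hs0 := hsec t
  rw [← tri_self hF.1] at hs0
  have hne : eval t g • pt a t + pt b (fun i => eval t (σ i)) ≠ 0 := by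
    intro h0
    have h1 := hx (fun i => eval t g * t i) (fun i => eval t (σ i)) 0
    rw [pt_smul, h0, map_zero] at h1
    exact ht h1.symm
  have key0 : ∀ c1 c2 : ℂ, eval t g * tri F (pt a t) (pt a t) (pt b ![t 0, c1, c2]) +
      2 * tri F (pt a t) (pt b fun i => eval t (σ i)) (pt b ![t 0, c1, c2]) = 0 := by
    intro c1 c2
    have h1 := eval_RR (tri F) a b g σ ![t 0, t 1, t 2, c1, c2]
    rw [hR, map_zero] at h1
    have h2 : (fun i => eval ![t 0, t 1, t 2, c1, c2] (UU i)) = t := by
      funext i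
      fin_cases i <;> simp [UU]
    have h3 : (fun i => eval ![t 0, t 1, t 2, c1, c2] (VV i)) = ![t 0, c1, c2] := by
      funext i
      fin_cases i <;> simp [VV]
    have h4 : (fun i => eval ![t 0, t 1, t 2, c1, c2] (sU σ i)) = fun i => eval t (σ i) := by
      funext i
      rw [eval_sU, h2]
    rw [h3, h4, eval_gU, h2] at h1
    linear_combination (-1 / 3 : ℂ) * h1
  generalize hS : (pt b fun i => eval t (σ i)) = S at *
  have key : ∀ c, eval t g * tri F (pt a t) (pt a t) (pt b c) +
      2 * tri F (pt a t) S (pt b c) = 0 := by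
    intro c
    have h1 : pt b c = pt b ![t 0, c 1, c 2] + (c 0 / t 0 - 1) • pt b ![t 0, 0, 0] := by
      rw [pt_smul', ← pt_add]
      congr 1
      funext i
      fin_cases i
      · simp
        field_simp
        ring
      · simp
      · simp
    rw [h1]
    simp only [map_add, map_smul, smul_eq_mul]
    linear_combination key0 (c 1) (c 2) + (c 0 / t 0 - 1) * key0 0 0
  have hSb : ∀ c, tri F S S (pt b c) = 0 := by
    intro c
    rw [← hS]
    exact t3 _ _ _
  have hSSS : tri F S S S = 0 := by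
    conv_lhs => rw [← hS]
    exact t3 _ _ _
  have keyS : eval t g * tri F (pt a t) (pt a t) S + 2 * tri F (pt a t) S S = 0 := by
    have := key (fun i => eval t (σ i))
    rwa [hS] at this
  clear hS
  have hb : ∀ c, tri F (eval t g • pt a t + S) (eval t g • pt a t + S) (pt b c) = 0 := by
    intro c
    have h1 := key c
    have h2 := hSb c
    generalize pt b c = B at *
    generalize pt a t = A at *
    simp only [map_add, map_smul, LinearMap.add_apply, LinearMap.smul_apply, smul_eq_mul]
    have k1 : tri F S A B = tri F A S B := s1 _ _ _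
    rw [k1]
    linear_combination eval t g * h1 + h2
  have hA : tri F (eval t g • pt a t + S) (eval t g • pt a t + S) (pt a t) = 0 := by
    have h2 : tri F (eval t g • pt a t + S) (eval t g • pt a t + S) S = 0 := by
      generalize pt a t = A at *
      simp only [map_add, map_smul, LinearMap.add_apply, LinearMap.smul_apply, smul_eq_mul]
      have k1 : tri F S A S = tri F A S S := s1 _ _ _
      rw [k1]
      linear_combination eval t g * keyS + hSSS
    have h3 : eval t g * tri F (eval t g • pt a t + S) (eval t g • pt a t + S) (pt a t) = 0 := by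
      have h4 := hs0
      rw [map_add, map_smul, smul_eq_mul, h2, add_zero] at h4
      exact h4
    rcases mul_eq_zero.mp h3 with h | h
    · exact absurd h hG
    · exact h
  have ha : ∀ j, tri F (eval t g • pt a t + S) (eval t g • pt a t + S) (a j) = 0 := by
    intro j
    have h1 := hder j
    rw [map_add, map_add, map_smul, map_smul, hA, hb, smul_zero, zero_add, add_zero,
      smul_eq_mul] at h1
    rcases mul_eq_zero.mp h1 with h | h
    · exact absurd h hG
    · exact h
  obtain ⟨w, hw⟩ := smooth_tri hF hne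
  apply hw
  rw [hv w, map_add, hb, add_zero]
  simp only [pt, map_sum, map_smul]
  have : ∀ j, tri F (eval t g • pt a t + S) (eval t g • pt a t + S) (a j) = 0 := ha
  simp only [pt] at this
  simp only [this, smul_zero, Finset.sum_const_zero]

/-- LEAF E -/
theorem rational_of_section {F : MvPolynomial (Fin 6) ℂ} (hF : SmoothCubic F)
    (a b : Fin 3 → (Fin 6 → ℂ)) (hab : LinearIndependent ℂ (Sum.elim a b))
    (hP : ∀ t : Fin 3 → ℂ, eval (∑ i, t i • b i) F = 0)
    (g : MvPolynomial (Fin 3) ℂ) (σ : Fin 3 → MvPolynomial (Fin 3) ℂ) (d : ℕ)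
    (hg : g.IsHomogeneous d) (hσ : ∀ i, (σ i).IsHomogeneous (d + 1)) (hg0 : g ≠ 0)
    (hsec : ∀ t : Fin 3 → ℂ,
      eval (eval t g • ∑ i, t i • a i + ∑ i, eval t (σ i) • b i) F = 0) :
    RationalHypersurface F := by
  let B := basisOfLinearIndependentOfCardEqFinrank hab (by simp)
  let x : Fin 3 → ((Fin 6 → ℂ) →ₗ[ℂ] ℂ) := fun i => B.coord (Sum.inl i)
  let y : Fin 3 → ((Fin 6 → ℂ) →ₗ[ℂ] ℂ) := fun i => B.coord (Sum.inr i)
  have hBp : ∀ i, B (Sum.inl i) = a i := by
    intro i
    simp [B]
  have hBq : ∀ i, B (Sum.inr i) = b i := by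
    intro i
    simp [B]
  have hv : ∀ v : Fin 6 → ℂ, v = pt a (fun i => x i v) + pt b (fun i => y i v) := by
    intro v
    conv_lhs => rw [← B.sum_repr v, Fintype.sum_sum_type]
    simp only [hBp, hBq]
    rfl
  have hpt : ∀ c d : Fin 3 → ℂ, pt a c + pt b d =
      ∑ k, Sum.elim c d k • B k := by
    intro c d
    rw [Fintype.sum_sum_type]
    simp only [hBp, hBq, Sum.elim_inl, Sum.elim_inr]
    rfl
  have hx : ∀ (c d : Fin 3 → ℂ) i, x i (pt a c + pt b d) = c i := by
    intro c d i
    simp only [x, hpt, Module.Basis.coord_apply, Module.Basis.repr_sum_self, Sum.elim_inl]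
  have hy : ∀ (c d : Fin 3 → ℂ) i, y i (pt a c + pt b d) = d i := by
    intro c d i
    simp only [y, hpt, Module.Basis.coord_apply, Module.Basis.repr_sum_self, Sum.elim_inr]
  have hT : ∀ v, eval v F = tri F v v v := fun v => (tri_self hF.1 v).symm
  have s1 : ∀ x y z, tri F x y z = tri F y x z := tri_comm1 F
  have s2 : ∀ x y z, tri F x y z = tri F x z y := tri_comm2 F
  let W : Submodule ℂ (Fin 6 → ℂ) := Submodule.span ℂ (Set.range b)
  have hbW : ∀ i, b i ∈ W := fun i => Submodule.subset_span ⟨i, rfl⟩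
  have hqc : ∀ c, pt b c ∈ W := fun c =>
    Submodule.sum_mem _ fun i _ => W.smul_mem _ (hbW i)
  have t2 : ∀ w ∈ W, tri F w w w = 0 := by
    intro w hw
    obtain ⟨c, rfl⟩ := (Submodule.mem_span_range_iff_exists_fun ℂ).mp hw
    rw [← hT]
    exact hP c
  have t3 : ∀ c c' c'', tri F (pt b c) (pt b c') (pt b c'') = 0 := fun c c' c'' =>
    tri_zero_of_self s1 s2 t2 (hqc c) (hqc c') (hqc c'')
  have hsec' : ∀ t : Fin 3 → ℂ,
      eval (eval t g • pt a t + pt b (fun i => eval t (σ i))) F = 0 := hsec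
  have hq : ∀ c, tri F (pt b c) (pt b c) (pt b c) = 0 := fun c => t3 c c c
  have E1 : ∀ t : Fin 3 → ℂ, (eval t g) ^ 2 * tri F (pt a t) (pt a t) (pt a t) +
      3 * eval t g * tri F (pt a t) (pt a t) (pt b fun i => eval t (σ i)) +
      3 * tri F (pt a t) (pt b fun i => eval t (σ i)) (pt b fun i => eval t (σ i)) = 0 := by
    let q : MvPolynomial (Fin 3) ℂ := ∑ i, ∑ j, ∑ k,
      (C (tri F (a i) (a j) (a k)) * (g ^ 2 * (X i * X j * X k)) +
        C (3 * tri F (a i) (a j) (b k)) * (g * (X i * X j * σ k)) +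
        C (3 * tri F (a i) (b j) (b k)) * (X i * σ j * σ k))
    have hqe : ∀ t, eval t q = (eval t g) ^ 2 * tri F (pt a t) (pt a t) (pt a t) +
        3 * eval t g * tri F (pt a t) (pt a t) (pt b fun i => eval t (σ i)) +
        3 * tri F (pt a t) (pt b fun i => eval t (σ i)) (pt b fun i => eval t (σ i)) := by
      intro t
      simp only [q, pt, Fin.sum_univ_three, map_add, map_mul, map_pow, eval_C, eval_X, map_smul,
        LinearMap.add_apply, LinearMap.smul_apply, smul_eq_mul]
      ring
    have hgq : g * q = 0 := by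
      refine MvPolynomial.funext fun t => ?_
      rw [map_mul, hqe, map_zero]
      have h1 := hsec' t
      rw [pt_smul', F_split s1 s2 hT hq, ← pt_smul'] at h1
      simp only [map_smul, LinearMap.smul_apply, smul_eq_mul] at h1
      linear_combination h1
    have hq0 : q = 0 := by
      rcases mul_eq_zero.mp hgq with h | h
      · exact absurd h hg0
      · exact h
    intro t
    rw [← hqe, hq0, map_zero]
  refine section_core s1 s2 hT hv hx hy hq hg hσ hg0 E1 ?_ ?_
  · apply BB_ne_zero
    have hne : b 0 ≠ 0 := by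
      rw [← hBq]; exact B.ne_zero _
    obtain ⟨w, hw⟩ := smooth_tri hF hne
    by_contra hcon
    push Not at hcon
    apply hw
    rw [hv w, map_add, tri_zero_of_self s1 s2 t2 (hbW 0) (hbW 0) (hqc _)]
    have : ∀ k, tri F (b 0) (b 0) (a k) = 0 := by
      intro k
      rw [s2, s1]; exact hcon k
    simp only [pt, map_sum, map_smul, this, smul_zero, Finset.sum_const_zero, add_zero]
  · exact RR_ne_zero hF hv hx t3 hg0 hsec'

end Vale.Agent.P287.H583
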