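import Vale.Agent.P287.H583.LeafE
import Vale.Agent.P287.H674.Crit
import Vale.Agent.P287.H46.CommonZero

/-!
Case B: the section of the projection from a plane.
-/

namespace Vale.Agent.P287.H583

open MvPolynomial Vale.Agent.P287.H674

/-- the point with the given coordinates -/
noncomputable def pnt (e : Module.Basis (Fin 6) ℂ (Fin 6 → ℂ)) (x : ℂ) (z : Fin 3 → ℂ)
    (y : Fin 2 → ℂ) : Fin 6 → ℂ :=
  x • e 0 + z 0 • e 1 + z 1 • e 2 + z 2 • e 3 + y 0 • e 4 + y 1 • e 5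

theorem pnt_inj (e : Module.Basis (Fin 6) ℂ (Fin 6 → ℂ)) {x : ℂ} {z : Fin 3 → ℂ}
    {y : Fin 2 → ℂ} (h : pnt e x z y = 0) : x = 0 ∧ (∀ i, z i = 0) ∧ ∀ i, y i = 0 := by
  have h1 := Fintype.linearIndependent_iff.mp e.linearIndependent
    ![x, z 0, z 1, z 2, y 0, y 1] (by
      rw [Fin.sum_univ_six]
      simpa [pnt] using h)
  refine ⟨by simpa using h1 0, fun i => ?_, fun i => ?_⟩
  · fin_cases i
    · simpa using h1 1
    · simpa using h1 2
    · simpa using h1 3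
  · fin_cases i
    · simpa using h1 4
    · simpa using h1 5

/-- the squares -/
def sqv (a b : ℂ) : Fin 3 → ℂ := ![a ^ 2, 2 * a * b, b ^ 2]

theorem exists_double (Q K : (Fin 3 → ℂ) → ℂ) (hQ : IsHP 3 2 Q) (hC : IsHP 3 3 K)
    (l : Fin 3 → ℂ) : ∃ p q : ℂ, (p ≠ 0 ∨ q ≠ 0) ∧
      Q (sqv p q) ^ 2 = 4 * (l 0 * p ^ 2 + 2 * l 1 * p * q + l 2 * q ^ 2) * K (sqv p q) := by
  obtain ⟨QP, hQ1, hQ2⟩ := hQ
  obtain ⟨CP, hC1, hC2⟩ := hC
  let S : Fin 3 → MvPolynomial (Fin 2) ℂ := ![X 0 ^ 2, 2 * X 0 * X 1, X 1 ^ 2]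
  have hS : ∀ v : Fin 2 → ℂ, (fun i => eval v (S i)) = sqv (v 0) (v 1) := by
    intro v
    funext i
    fin_cases i <;> simp [S, sqv]
  let P : MvPolynomial (Fin 2) ℂ := (aeval S QP) ^ 2 -
    4 * (C (l 0) * X 0 ^ 2 + 2 * C (l 1) * X 0 * X 1 + C (l 2) * X 1 ^ 2) * aeval S CP
  have hP : ∀ v : Fin 2 → ℂ, eval v P = Q (sqv (v 0) (v 1)) ^ 2 -
      4 * (l 0 * v 0 ^ 2 + 2 * l 1 * v 0 * v 1 + l 2 * v 1 ^ 2) * K (sqv (v 0) (v 1)) := by
    intro v
    have e1 : eval v (aeval S QP) = Q (sqv (v 0) (v 1)) := by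
      rw [eval_aeval, hS, hQ2]
    have e2 : eval v (aeval S CP) = K (sqv (v 0) (v 1)) := by
      rw [eval_aeval, hS, hC2]
    simp only [P, map_sub, map_pow, map_mul, map_add, eval_C, eval_X, e1, e2, map_ofNat]
  have hQ0 : Q (sqv 0 0) = 0 := by
    have h1 := IsHP.map_smul (n := 3) (d := 2) ⟨QP, hQ1, hQ2⟩ 0 (sqv 0 0)
    have h2 : (0 : ℂ) • sqv 0 0 = sqv 0 0 := by
      funext i
      fin_cases i <;> simp [sqv]
    rw [h2] at h1
    rw [h1]
    simp
  obtain ⟨v, hv, hv0⟩ := H46.exists_common_zero (n := 2) (k := 1) (by norm_num) (fun _ => P)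
    (fun _ => by
      rw [hP]
      simp only [Pi.zero_apply]
      rw [hQ0]
      ring)
  refine ⟨v 0, v 1, ?_, ?_⟩
  · by_contra hcon
    push Not at hcon
    apply hv
    funext i
    fin_cases i
    · exact hcon.1
    · exact hcon.2
  · have := hv0 0
    rw [hP] at this
    linear_combination this

theorem exists_roots (a b c : ℂ) (h : b ^ 2 = 4 * a * c) :
    ∃ α β : ℂ, α ^ 2 = -a ∧ 2 * α * β = -b ∧ β ^ 2 = -c := by
  obtain ⟨α, hα⟩ := IsAlgClosed.exists_pow_nat_eq (-a) (n := 2) (by norm_num)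
  by_cases h0 : α = 0
  · obtain ⟨β, hβ⟩ := IsAlgClosed.exists_pow_nat_eq (-c) (n := 2) (by norm_num)
    have ha : a = 0 := by
      rw [h0] at hα
      linear_combination hα
    have hb : b = 0 := by
      rw [ha] at h
      have : b ^ 2 = 0 := by rw [h]; ring
      exact pow_eq_zero_iff (two_ne_zero) |>.mp this
    refine ⟨α, β, hα, ?_, hβ⟩
    rw [h0, hb]
    ring
  · refine ⟨α, -b / (2 * α), hα, ?_, ?_⟩
    · field_simp
    · have ha : a ≠ 0 := by
        rintro rfl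
        rw [neg_zero] at hα
        exact h0 (pow_eq_zero_iff (two_ne_zero) |>.mp hα)
      rw [div_pow, div_eq_iff (pow_ne_zero 2 (mul_ne_zero two_ne_zero h0))]
      linear_combination h + 4 * c * hα

end Vale.Agent.P287.H583
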