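import Vale.Agent.P287.H583.LeafF

/-!
Case B: the section of the projection from a plane.
-/

namespace Vale.Agent.P287.H583

open MvPolynomial Vale.Agent.P287.H674

theorem indep_ab (e : Module.Basis (Fin 6) ℂ (Fin 6 → ℂ)) (p q p' q' α β : ℂ)
    (hdet : p' * q - q' * p = 1) :
    LinearIndependent ℂ (Sum.elim
      ![pnt e 0 (sqv p' q') ![0, 0], pnt e 0 ![p * p', p * q' + q * p', q * q'] ![0, 0],
        pnt e 0 ![0, 0, 0] ![-q', p']]
      ![pnt e 1 ![0, 0, 0] ![-q' * α, p' * α], pnt e 0 (sqv p q) ![-q' * β, p' * β],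
        pnt e 0 ![0, 0, 0] ![q, -p]]) := by
  rw [Fintype.linearIndependent_iff]
  intro c hc
  rw [Fintype.sum_sum_type, Fin.sum_univ_three, Fin.sum_univ_three] at hc
  simp only [Sum.elim_inl, Sum.elim_inr, Matrix.cons_val] at hc
  generalize h0 : c (Sum.inl 0) = c0 at hc
  generalize h1 : c (Sum.inl 1) = c1 at hc
  generalize h2 : c (Sum.inl 2) = c2 at hc
  generalize h3 : c (Sum.inr 0) = d0 at hc
  generalize h4 : c (Sum.inr 1) = d1 at hc
  generalize h5 : c (Sum.inr 2) = d2 at hc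
  have h := pnt_inj e (x := d0)
    (z := ![c0 * p' ^ 2 + c1 * (p * p') + d1 * p ^ 2,
      c0 * (2 * p' * q') + c1 * (p * q' + q * p') + d1 * (2 * p * q),
      c0 * q' ^ 2 + c1 * (q * q') + d1 * q ^ 2])
    (y := ![-q' * (c2 + d0 * α + d1 * β) + q * d2, p' * (c2 + d0 * α + d1 * β) - p * d2]) (by
      rw [← hc]
      simp only [pnt, sqv, Matrix.cons_val]
      module)
  obtain ⟨k0, k1, k2⟩ := h
  have z0 := k1 0
  have z1 := k1 1
  have z2 := k1 2
  have y0 := k2 0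
  have y1 := k2 1
  simp only [Matrix.cons_val] at z0 z1 z2 y0 y1
  have r0 : c0 = 0 := by
    linear_combination q ^ 2 * z0 - p * q * z1 + p ^ 2 * z2 -
      c0 * ((p' * q - q' * p) + 1) * hdet
  have r1 : c1 = 0 := by
    linear_combination (-2 * q * q') * z0 + (p * q' + q * p') * z1 - (2 * p * p') * z2 -
      c1 * ((p' * q - q' * p) + 1) * hdet
  have r3 : d1 = 0 := by
    linear_combination q' ^ 2 * z0 - p' * q' * z1 + p' ^ 2 * z2 -
      d1 * ((p' * q - q' * p) + 1) * hdet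
  have r5 : d2 = 0 := by
    linear_combination p' * y0 + q' * y1 - d2 * hdet
  have r2 : c2 = 0 := by
    have : c2 + d0 * α + d1 * β = 0 := by
      linear_combination p * y0 + q * y1 - (c2 + d0 * α + d1 * β) * hdet
    rw [k0, r3] at this
    linear_combination this
  rintro (i | i)
  · fin_cases i
    · exact h0.trans r0
    · exact h1.trans r1
    · exact h2.trans r2
  · fin_cases i
    · exact h3.trans k0
    · exact h4.trans r3
    · exact h5.trans r5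

section

variable (p q p' q' α β : ℂ) (θ : Fin 3 → ℂ) (u : Fin 4 → ℂ)

/-- first coordinate -/
noncomputable def E0 : MvPolynomial (Fin 3) ℂ := C p' * X 0 + C (p / 2) * X 1
/-- second coordinate -/
noncomputable def TH : MvPolynomial (Fin 3) ℂ :=
  C (θ 0) * (E0 p p' * E0 p p') + C (θ 1) * (E0 p p' * E0 q q') + C (θ 2) * (E0 q q' * E0 q q')
/-- the cubic -/
noncomputable def UP : MvPolynomial (Fin 3) ℂ :=
  C (u 0) * (E0 p p' * E0 p p' * E0 p p') + C (u 1) * (E0 p p' * E0 p p' * E0 q q') +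
    C (u 2) * (E0 p p' * E0 q q' * E0 q q') + C (u 3) * (E0 q q' * E0 q q' * E0 q q')

/-- the section -/
noncomputable def sig : Fin 3 → MvPolynomial (Fin 3) ℂ :=
  ![X 0 * TH p q p' q' θ, C (1 / 4) * (X 0 * X 1 * X 1),
    UP p q p' q' u - C (1 / 2) * (X 1 * (C α * TH p q p' q' θ + C (β / 4) * (X 1 * X 1) +
      X 0 * X 2))]

theorem E0_hom : (E0 p p').IsHomogeneous 1 :=
  ((isHomogeneous_X _ _).C_mul _).add ((isHomogeneous_X _ _).C_mul _)

theorem TH_hom : (TH p q p' q' θ).IsHomogeneous 2 := by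
  have h1 := E0_hom p p'
  have h2 := E0_hom q q'
  exact (((h1.mul h1).C_mul _).add ((h1.mul h2).C_mul _)).add ((h2.mul h2).C_mul _)

theorem UP_hom : (UP p q p' q' u).IsHomogeneous 3 := by
  have h1 := E0_hom p p'
  have h2 := E0_hom q q'
  exact (((((h1.mul h1).mul h1).C_mul _).add (((h1.mul h1).mul h2).C_mul _)).add
    (((h1.mul h2).mul h2).C_mul _)).add (((h2.mul h2).mul h2).C_mul _)

theorem sig_hom (i : Fin 3) : (sig p q p' q' α β θ u i).IsHomogeneous (2 + 1) := by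
  have hx : ∀ j : Fin 3, (X j : MvPolynomial (Fin 3) ℂ).IsHomogeneous 1 :=
    fun j => isHomogeneous_X _ _
  fin_cases i
  · exact (hx 0).mul (TH_hom p q p' q' θ)
  · exact (((hx 0).mul (hx 1)).mul (hx 1)).C_mul _
  · have h1 : (C α * TH p q p' q' θ + C (β / 4) * (X 1 * X 1) +
      X 0 * X 2 : MvPolynomial (Fin 3) ℂ).IsHomogeneous 2 :=
      (((TH_hom p q p' q' θ).C_mul _).add (((hx 1).mul (hx 1)).C_mul _)).add ((hx 0).mul (hx 2))
    exact (UP_hom p q p' q' u).sub (((hx 1).mul h1).C_mul _)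

theorem eval_E0 (t : Fin 3 → ℂ) : eval t (E0 p p') = t 0 * p' + t 1 / 2 * p := by
  simp only [E0, map_add, map_mul, eval_C, eval_X]
  ring

end

theorem rational_FB_of {F : MvPolynomial (Fin 6) ℂ} (hF : SmoothCubic F)
    (e : Module.Basis (Fin 6) ℂ (Fin 6 → ℂ)) (l : Fin 3 → ℂ) (Q : (Fin 3 → ℂ) → ℂ)
    (K : (Fin 3 → ℂ) → ℂ) (hQ : IsHP 3 2 Q) (hK : IsHP 3 3 K)
    (h : ∀ (x : ℂ) (z : Fin 3 → ℂ) (y : Fin 2 → ℂ),
      eval (pnt e x z y) F = x ^ 2 * (l 0 * z 0 + l 1 * z 1 + l 2 * z 2) + x * Q z + K z +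
        (z 0 * y 0 ^ 2 + z 1 * y 0 * y 1 + z 2 * y 1 ^ 2))
    (hth : ∃ (θ : Fin 3 → ℂ) (u : Fin 4 → ℂ), ∀ e : Fin 2 → ℂ,
      (l 0 * e 0 ^ 2 + 2 * l 1 * e 0 * e 1 + l 2 * e 1 ^ 2) *
        (θ 0 * e 0 ^ 2 + θ 1 * e 0 * e 1 + θ 2 * e 1 ^ 2) ^ 2 +
      Q ![e 0 ^ 2, 2 * e 0 * e 1, e 1 ^ 2] * (θ 0 * e 0 ^ 2 + θ 1 * e 0 * e 1 + θ 2 * e 1 ^ 2) +
      K ![e 0 ^ 2, 2 * e 0 * e 1, e 1 ^ 2] +
      (u 0 * e 0 ^ 3 + u 1 * e 0 ^ 2 * e 1 + u 2 * e 0 * e 1 ^ 2 + u 3 * e 1 ^ 3) ^ 2 = 0) :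
    RationalHypersurface F := by
  obtain ⟨p, q, hpq, hd⟩ := exists_double Q K hQ hK l
  obtain ⟨α, β, hα, hαβ, hβ⟩ := exists_roots (l 0 * p ^ 2 + 2 * l 1 * p * q + l 2 * q ^ 2)
    (Q (sqv p q)) (K (sqv p q)) hd
  obtain ⟨p', q', hdet⟩ : ∃ p' q' : ℂ, p' * q - q' * p = 1 := by
    rcases hpq with h | h
    · exact ⟨0, -1 / p, by field_simp; ring⟩
    · exact ⟨1 / q, 0, by field_simp; ring⟩
  obtain ⟨θ, u, hθ⟩ := hth
  refine rational_of_section hF _ _ (indep_ab e p q p' q' α β hdet) ?_ (X 0 ^ 2)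
    (sig p q p' q' α β θ u) 2 ((isHomogeneous_X _ _).pow 2) (sig_hom p q p' q' α β θ u)
    (pow_ne_zero _ (X_ne_zero 0)) ?_
  · intro t
    have h1 : (∑ i, t i • (![pnt e 1 ![0, 0, 0] ![-q' * α, p' * α],
        pnt e 0 (sqv p q) ![-q' * β, p' * β], pnt e 0 ![0, 0, 0] ![q, -p]] :
          Fin 3 → (Fin 6 → ℂ)) i) =
        pnt e (t 0) (t 1 • sqv p q) ![-q' * (α * t 0 + β * t 1) + q * t 2,
          p' * (α * t 0 + β * t 1) - p * t 2] := by
      rw [Fin.sum_univ_three]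
      simp only [pnt, sqv, Matrix.cons_val, Pi.smul_apply, smul_eq_mul]
      module
    rw [h1, h, hQ.map_smul, hK.map_smul]
    generalize Q (sqv p q) = Qv at *
    generalize K (sqv p q) = Kv at *
    simp only [sqv, Matrix.cons_val, Pi.smul_apply, smul_eq_mul]
    linear_combination t 1 * t 0 ^ 2 * hα + t 1 ^ 2 * t 0 * hαβ + t 1 ^ 3 * hβ +
      t 1 * (α * t 0 + β * t 1) ^ 2 * ((p' * q - q' * p) + 1) * hdet
  · intro t
    have e0 := eval_E0 p p' t
    have e1 := eval_E0 q q' t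
    have h2 := hθ ![eval t (E0 p p'), eval t (E0 q q')]
    have eTH : eval t (TH p q p' q' θ) = θ 0 * eval t (E0 p p') ^ 2 +
        θ 1 * eval t (E0 p p') * eval t (E0 q q') + θ 2 * eval t (E0 q q') ^ 2 := by
      simp only [TH, map_add, map_mul, eval_C]
      ring
    have eUP : eval t (UP p q p' q' u) = u 0 * eval t (E0 p p') ^ 3 +
        u 1 * eval t (E0 p p') ^ 2 * eval t (E0 q q') +
        u 2 * eval t (E0 p p') * eval t (E0 q q') ^ 2 + u 3 * eval t (E0 q q') ^ 3 := by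
      simp only [UP, map_add, map_mul, eval_C]
      ring
    simp only [Matrix.cons_val] at h2
    rw [← eTH, ← eUP] at h2
    generalize hT : eval t (TH p q p' q' θ) = T at *
    generalize hU : eval t (UP p q p' q' u) = U at *
    generalize hη0 : eval t (E0 p p') = η0 at *
    generalize hη1 : eval t (E0 q q') = η1 at *
    have s0 : eval t (sig p q p' q' α β θ u 0) = t 0 * T := by
      simp [sig, hT]
    have s1 : eval t (sig p q p' q' α β θ u 1) = t 0 * (t 1 / 2) ^ 2 := by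
      simp [sig]
      ring
    have s2 : eval t (sig p q p' q' α β θ u 2) =
        U - t 1 / 2 * (α * T + β * (t 1 / 2) ^ 2 + t 0 * t 2) := by
      simp [sig, hT, hU]
      ring
    have h3 : (![η0 ^ 2, 2 * η0 * η1, η1 ^ 2] : Fin 3 → ℂ) = sqv η0 η1 := rfl
    rw [h3] at h2
    have h1 : eval t (X 0 ^ 2 : MvPolynomial (Fin 3) ℂ) •
        (∑ i, t i • (![pnt e 0 (sqv p' q') ![0, 0],
          pnt e 0 ![p * p', p * q' + q * p', q * q'] ![0, 0],
          pnt e 0 ![0, 0, 0] ![-q', p']] : Fin 3 → (Fin 6 → ℂ)) i) +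
        (∑ i, eval t (sig p q p' q' α β θ u i) • (![pnt e 1 ![0, 0, 0] ![-q' * α, p' * α],
        pnt e 0 (sqv p q) ![-q' * β, p' * β], pnt e 0 ![0, 0, 0] ![q, -p]] :
          Fin 3 → (Fin 6 → ℂ)) i) =
        pnt e (t 0 * T) (t 0 • sqv η0 η1)
          ![-q' * (t 0 * (t 0 * t 2 + α * T + β * (t 1 / 2) ^ 2)) +
            q * (U - t 1 / 2 * (α * T + β * (t 1 / 2) ^ 2 + t 0 * t 2)),
            p' * (t 0 * (t 0 * t 2 + α * T + β * (t 1 / 2) ^ 2)) -
            p * (U - t 1 / 2 * (α * T + β * (t 1 / 2) ^ 2 + t 0 * t 2))] := by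
      rw [Fin.sum_univ_three, Fin.sum_univ_three, s0, s1, s2, e0, e1]
      simp only [pnt, sqv, Matrix.cons_val, Pi.smul_apply, smul_eq_mul, map_pow, eval_X]
      module
    rw [h1, h, hQ.map_smul, hK.map_smul]
    generalize Q (sqv η0 η1) = Qv at *
    generalize K (sqv η0 η1) = Kv at *
    simp only [sqv, Matrix.cons_val, Pi.smul_apply, smul_eq_mul]
    have h5 : η0 * (-q' * (t 0 * (t 0 * t 2 + α * T + β * (t 1 / 2) ^ 2)) +
            q * (U - t 1 / 2 * (α * T + β * (t 1 / 2) ^ 2 + t 0 * t 2))) +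
        η1 * (p' * (t 0 * (t 0 * t 2 + α * T + β * (t 1 / 2) ^ 2)) -
            p * (U - t 1 / 2 * (α * T + β * (t 1 / 2) ^ 2 + t 0 * t 2))) = t 0 * U := by
      rw [e0, e1]
      linear_combination (t 0 * U) * hdet
    generalize (-q' * (t 0 * (t 0 * t 2 + α * T + β * (t 1 / 2) ^ 2)) +
            q * (U - t 1 / 2 * (α * T + β * (t 1 / 2) ^ 2 + t 0 * t 2))) = Y0 at *
    generalize (p' * (t 0 * (t 0 * t 2 + α * T + β * (t 1 / 2) ^ 2)) -
            p * (U - t 1 / 2 * (α * T + β * (t 1 / 2) ^ 2 + t 0 * t 2))) = Y1 at *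
    linear_combination t 0 ^ 3 * h2 + t 0 * (η0 * Y0 + η1 * Y1 + t 0 * U) * h5

end Vale.Agent.P287.H583
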