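import Vale.Agent.P287.H583.LeafF2
import Vale.Agent.P287.H673.FB

/-!
Case B: rationality.
-/

namespace Vale.Agent.P287.H583

open MvPolynomial Vale.Agent.P287.H674

/-- LEAF F -/
theorem rational_FB {F : MvPolynomial (Fin 6) ℂ} (hF : SmoothCubic F)
    (b : Module.Basis (Fin 6) ℂ (Fin 6 → ℂ)) (l : Fin 3 → ℂ) (Q : (Fin 3 → ℂ) → ℂ)
    (C : (Fin 3 → ℂ) → ℂ) (hQ : IsHP 3 2 Q) (hC : IsHP 3 3 C)
    (h : ∀ (x : ℂ) (z : Fin 3 → ℂ) (y : Fin 2 → ℂ),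
      eval (x • b 0 + z 0 • b 1 + z 1 • b 2 + z 2 • b 3 + y 0 • b 4 + y 1 • b 5) F =
        x ^ 2 * (l 0 * z 0 + l 1 * z 1 + l 2 * z 2) + x * Q z + C z +
          (z 0 * y 0 ^ 2 + z 1 * y 0 * y 1 + z 2 * y 1 ^ 2)) : RationalHypersurface F :=
  rational_FB_of hF b l Q C hQ hC h (H673.exists_theta_FB hF b l Q C hQ hC h)

end Vale.Agent.P287.H583
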