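import Vale.Agent.P287.H583.SecRat

/-!
A pointwise criterion for the rationality of a smooth cubic fourfold.
-/

namespace Vale.Agent.P287.H583

open MvPolynomial Vale.Agent.P287.H674

/-- a polynomial which vanishes on `V(F)` is divisible by `F` -/
theorem dvd_of_vanish {F : MvPolynomial (Fin 6) ℂ} (hF : SmoothCubic F)
    {P : MvPolynomial (Fin 6) ℂ} (h : ∀ z, eval z F = 0 → eval z P = 0) : F ∣ P := by
  have hp := H673.prime_of_smooth hF
  have hI : (Ideal.span {F}).IsPrime := (Ideal.span_singleton_prime hp.ne_zero).mpr hp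
  have h1 : P ∈ vanishingIdeal ℂ (zeroLocus ℂ (Ideal.span {F})) := by
    rw [mem_vanishingIdeal_iff]
    intro z hz
    rw [mem_zeroLocus_iff] at hz
    have h2 := hz F (Ideal.mem_span_singleton_self F)
    rw [H673.aeval_eval] at h2 ⊢
    exact h z h2
  rw [IsPrime.vanishingIdeal_zeroLocus] at h1
  exact Ideal.mem_span_singleton.mp h1

/-- pointwise criterion for rationality -/
theorem rational_of_pointwise {F : MvPolynomial (Fin 6) ℂ} (hF : SmoothCubic F) {D E : ℕ}
    (hD : D ≠ 0) (hE : E ≠ 0)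
    (φ : Fin 6 → MvPolynomial (Fin 5) ℂ) (ψ : Fin 5 → MvPolynomial (Fin 6) ℂ)
    (hφ : ∀ i, (φ i).IsHomogeneous D) (hψ : ∀ j, (ψ j).IsHomogeneous E)
    (c1 : ∀ v, eval (fun i => eval v (φ i)) F = 0)
    (c2 : ∀ (v : Fin 5 → ℂ) (i j : Fin 5), v i * eval (fun l => eval v (φ l)) (ψ j) =
      v j * eval (fun l => eval v (φ l)) (ψ i))
    (c3 : ∀ z, eval z F = 0 → ∀ i j : Fin 6, z i * eval (fun l => eval z (ψ l)) (φ j) =
      z j * eval (fun l => eval z (ψ l)) (φ i))
    (c4 : ∃ v j, eval (fun l => eval v (φ l)) (ψ j) ≠ 0) : RationalHypersurface F := by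
  have a1 : aeval φ F = 0 := MvPolynomial.funext fun v => by rw [eval_aeval, c1, map_zero]
  have a2 : ∀ i j : Fin 5, X i * aeval φ (ψ j) = X j * aeval φ (ψ i) := by
    intro i j
    refine MvPolynomial.funext fun v => ?_
    rw [map_mul, map_mul, eval_aeval, eval_aeval, eval_X, eval_X]
    exact c2 v i j
  obtain ⟨v₀, j₀, hv₀⟩ := c4
  have hdvd : X 0 ∣ aeval φ (ψ 0) := by
    have h1 : (X 0 : MvPolynomial (Fin 5) ℂ) ∣ X 1 * aeval φ (ψ 0) := ⟨_, (a2 0 1).symm⟩
    rcases (X_prime (R := ℂ) (i := (0 : Fin 5))).dvd_or_dvd h1 with h | h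
    · exfalso
      obtain ⟨q, hq⟩ := h
      have h2 := congrArg (eval (![0, 1, 0, 0, 0] : Fin 5 → ℂ)) hq
      rw [map_mul, eval_X, eval_X] at h2
      simp at h2
    · exact h
  obtain ⟨h, hh⟩ := hdvd
  have a3 : ∀ j, aeval φ (ψ j) = h * X j := by
    intro j
    have h1 := a2 0 j
    rw [hh] at h1
    have h2 : X 0 * (aeval φ (ψ j) - h * X j) = 0 := by
      linear_combination h1
    rcases mul_eq_zero.mp h2 with h3 | h3
    · exact absurd h3 (X_ne_zero 0)
    · exact sub_eq_zero.mp h3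
  have hh0 : h ≠ 0 := by
    rintro rfl
    apply hv₀
    rw [← eval_aeval, a3, zero_mul, map_zero]
  obtain ⟨i₀, hi₀⟩ : ∃ i, φ i ≠ 0 := by
    by_contra hcon
    push Not at hcon
    apply hv₀
    have h1 : (fun l => eval v₀ (φ l)) = fun l => (0 : ℂ) * (0 : Fin 6 → ℂ) l := by
      funext l
      rw [hcon l, map_zero, zero_mul]
    rw [h1, eval_mul_left (hψ j₀), zero_pow hE, zero_mul]
  have e1 : ∀ j, (X i₀ * ψ j).IsHomogeneous (E + 1) := by
    intro j
    have := (isHomogeneous_X ℂ i₀).mul (hψ j)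
    rwa [add_comm] at this
  refine rational_of_maps (d := D) (e := E + 1) (by omega) φ (fun j => X i₀ * ψ j)
    (φ i₀ * h) (X i₀ ^ (D - 1) * aeval ψ (φ i₀)) hφ e1 a1 (mul_ne_zero hi₀ hh0) ?_ ?_
  · intro j
    rw [map_mul, aeval_X, a3]
    ring
  · intro i
    apply dvd_of_vanish hF
    intro z hz
    have h1 := c3 z hz i₀ i
    rw [map_sub, eval_aeval, map_mul, map_mul, map_pow, eval_X, eval_X, eval_aeval]
    have h2 : (fun j => eval z (X i₀ * ψ j)) = fun j => z i₀ * eval z (ψ j) := by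
      funext j
      rw [map_mul, eval_X]
    rw [h2, eval_mul_left (hφ i)]
    obtain ⟨k, rfl⟩ := Nat.exists_eq_succ_of_ne_zero hD
    rw [Nat.succ_sub_one, pow_succ]
    linear_combination z i₀ ^ k * h1

end Vale.Agent.P287.H583
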