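import Vale.Agent.P287.H674.Ratl
import Vale.Agent.P287.H673.Prime

/-!
A smooth cubic fourfold which contains a plane, and for which the projection from the plane has
a rational section, is rational.
-/

namespace Vale.Agent.P287.H583

open MvPolynomial Vale.Agent.P287.H674

theorem eval_mul_left {n : ℕ} {p : MvPolynomial (Fin n) ℂ} {d : ℕ} (hp : p.IsHomogeneous d)
    (r : ℂ) (v : Fin n → ℂ) : eval (fun i => r * v i) p = r ^ d * eval v p :=
  H673.eval_hom_smul hp r v

/-- chain rule -/
theorem pderiv_aeval_eq {n m : ℕ} (S : Fin n → MvPolynomial (Fin m) ℂ) (j : Fin m)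
    (F : MvPolynomial (Fin n) ℂ) :
    pderiv j (aeval S F) = ∑ i, aeval S (pderiv i F) * pderiv j (S i) := by
  induction F using MvPolynomial.induction_on with
  | C a => simp
  | add p q hp hq => simp only [map_add, hp, hq, add_mul, Finset.sum_add_distrib]
  | mul_X p k hp =>
    have h1 : ∀ i : Fin n, aeval S (pderiv i (p * X k)) * pderiv j (S i) =
        aeval S (pderiv i p) * pderiv j (S i) * S k +
          (if i = k then aeval S p * pderiv j (S k) else 0) := by
      intro i
      rw [pderiv_mul, pderiv_X, map_add, map_mul, map_mul, aeval_X]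
      by_cases hik : i = k
      · subst hik
        simp only [Pi.single_eq_same, map_one, if_true]
        ring
      · rw [if_neg hik, Pi.single_eq_of_ne (Ne.symm hik)]
        simp only [map_zero]
        ring
    rw [map_mul, aeval_X, pderiv_mul, hp]
    simp only [h1]
    rw [Finset.sum_add_distrib, Finset.sum_ite_eq' Finset.univ k, if_pos (Finset.mem_univ k),
      Finset.sum_mul]

/-- a criterion for rationality, in which the last nonvanishing is automatic -/
theorem rational_of_maps {F : MvPolynomial (Fin 6) ℂ} {d e : ℕ} (he : e ≠ 0)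
    (φ : Fin 6 → MvPolynomial (Fin 5) ℂ) (ψ : Fin 5 → MvPolynomial (Fin 6) ℂ)
    (h : MvPolynomial (Fin 5) ℂ) (g : MvPolynomial (Fin 6) ℂ)
    (hφ : ∀ i, (φ i).IsHomogeneous d) (hψ : ∀ j, (ψ j).IsHomogeneous e)
    (c1 : aeval φ F = 0) (h0 : h ≠ 0) (c4 : ∀ j, aeval φ (ψ j) = h * X j)
    (c5 : ∀ i, F ∣ aeval ψ (φ i) - g * X i) : RationalHypersurface F := by
  refine ⟨d, e, φ, ψ, h, g, hφ, hψ, c1, h0, ?_, c4, c5⟩
  intro hd
  have h1 : ∀ i, φ i = 0 := by
    intro i
    have h2 : F ∣ aeval ψ (φ i) := by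
      have := dvd_add (c5 i) (hd.mul_right (X i))
      rwa [sub_add_cancel] at this
    obtain ⟨k, hk⟩ := h2
    have h3 : aeval φ (aeval ψ (φ i)) = h ^ d * φ i := by
      refine MvPolynomial.funext fun t => ?_
      rw [eval_aeval, eval_aeval]
      have h4 : (fun j => eval (fun l => eval t (φ l)) (ψ j)) = fun j => eval t h * t j := by
        funext j
        rw [← eval_aeval, c4 j, map_mul, eval_X]
      rw [h4, eval_mul_left (hφ i), map_mul, map_pow]
    rw [hk, map_mul, c1, zero_mul] at h3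
    rcases mul_eq_zero.mp h3.symm with h5 | h5
    · exact absurd h5 (pow_ne_zero _ h0)
    · exact h5
  have h2 := c4 0
  have h3 : aeval φ (ψ 0) = 0 := by
    refine MvPolynomial.funext fun t => ?_
    rw [eval_aeval, map_zero]
    have h4 : (fun i => eval t (φ i)) = fun i => (0 : ℂ) * t 0 := by
      funext i
      rw [h1 i, map_zero, zero_mul]
    rw [h4, eval_mul_left (hψ 0), zero_pow he, zero_mul]
  rw [h3] at h2
  exact mul_ne_zero h0 (X_ne_zero 0) h2.symm

theorem pt_smul' (p : Fin 3 → (Fin 6 → ℂ)) (r : ℂ) (c : Fin 3 → ℂ) :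
    r • pt p c = pt p (fun i => r * c i) := (pt_smul p r c).symm

theorem pt_add (p : Fin 3 → (Fin 6 → ℂ)) (c c' : Fin 3 → ℂ) :
    pt p (fun i => c i + c' i) = pt p c + pt p c' := by
  simp only [pt, add_smul, Finset.sum_add_distrib]

theorem pt_sub (p : Fin 3 → (Fin 6 → ℂ)) (c c' : Fin 3 → ℂ) :
    pt p (fun i => c i - c' i) = pt p c - pt p c' := by
  simp only [pt, sub_smul, Finset.sum_sub_distrib]

section

variable (T : (Fin 6 → ℂ) →ₗ[ℂ] (Fin 6 → ℂ) →ₗ[ℂ] (Fin 6 → ℂ) →ₗ[ℂ] ℂ)
  (a b : Fin 3 → (Fin 6 → ℂ)) (g : MvPolynomial (Fin 3) ℂ) (σ : Fin 3 → MvPolynomial (Fin 3) ℂ)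

/-- the denominator of the section at the point of the base -/
noncomputable def gU : MvPolynomial (Fin 5) ℂ := aeval UU g

/-- the numerators of the section -/
noncomputable def sU (i : Fin 3) : MvPolynomial (Fin 5) ℂ := aeval UU (σ i)

/-- the polar form of the quadric -/
noncomputable def RR : MvPolynomial (Fin 5) ℂ :=
  gU g * AA T a b + ∑ i, ∑ j, ∑ k, C (6 * T (a i) (b j) (b k)) * (UU i * sU σ j * VV k)

/-- the parametrisation -/
noncomputable def ph (l : Fin 6) : MvPolynomial (Fin 5) ℂ :=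
  ∑ i, C (a i l) * (BB T a b * (gU g * UU i)) +
    ∑ i, C (b i l) * (BB T a b * sU σ i - RR T a b g σ * VV i)

theorem eval_gU (t : Fin 5 → ℂ) : eval t (gU g) = eval (fun i => eval t (UU i)) g :=
  eval_aeval _ _ _

theorem eval_sU (i : Fin 3) (t : Fin 5 → ℂ) :
    eval t (sU σ i) = eval (fun i => eval t (UU i)) (σ i) :=
  eval_aeval _ _ _

theorem eval_RR (t : Fin 5 → ℂ) : eval t (RR T a b g σ) =
    3 * eval t (gU g) * T (pt a fun i => eval t (UU i)) (pt a fun i => eval t (UU i))
      (pt b fun i => eval t (VV i)) +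
    6 * T (pt a fun i => eval t (UU i)) (pt b fun i => eval t (sU σ i))
      (pt b fun i => eval t (VV i)) := by
  have e : eval t (AA T a b) = 3 * T (pt a fun i => eval t (UU i)) (pt a fun i => eval t (UU i))
      (pt b fun i => eval t (VV i)) := eval_AA T a b t
  have e2 : eval t (∑ i, ∑ j, ∑ k, C (6 * T (a i) (b j) (b k)) * (UU i * sU σ j * VV k)) =
      6 * T (pt a fun i => eval t (UU i)) (pt b fun i => eval t (sU σ i))
      (pt b fun i => eval t (VV i)) := by
    simp only [pt, Fin.sum_univ_three, map_add, map_mul, eval_C, map_smul,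
      LinearMap.add_apply, LinearMap.smul_apply, smul_eq_mul]
    ring
  rw [RR, map_add, map_mul, e, e2]
  ring

theorem eval_ph (t : Fin 5 → ℂ) :
    (fun l => eval t (ph T a b g σ l)) =
      pt a (fun i => eval t (BB T a b) * (eval t (gU g) * eval t (UU i))) +
      pt b (fun i => eval t (BB T a b) * eval t (sU σ i) -
        eval t (RR T a b g σ) * eval t (VV i)) := by
  funext l
  simp only [ph, pt, Fin.sum_univ_three, map_sub, map_add, map_mul, eval_C,
    Pi.smul_apply, Pi.add_apply, smul_eq_mul]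
  ring

theorem gU_hom {d : ℕ} (hg : g.IsHomogeneous d) : (gU g).IsHomogeneous d := by
  have := hg.aeval UU UU_hom
  rwa [one_mul] at this

theorem sU_hom {d : ℕ} (hσ : ∀ i, (σ i).IsHomogeneous (d + 1)) (i : Fin 3) :
    (sU σ i).IsHomogeneous (d + 1) := by
  have := (hσ i).aeval UU UU_hom
  rwa [one_mul] at this

theorem RR_hom {d : ℕ} (hg : g.IsHomogeneous d) (hσ : ∀ i, (σ i).IsHomogeneous (d + 1)) :
    (RR T a b g σ).IsHomogeneous (d + 3) := by
  refine IsHomogeneous.add ((gU_hom g hg).mul (AA_hom T a b)) ?_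
  refine IsHomogeneous.sum _ _ _ fun i _ => IsHomogeneous.sum _ _ _ fun j _ =>
    IsHomogeneous.sum _ _ _ fun k _ => ?_
  have h := ((UU_hom i).mul (sU_hom σ hσ j)).mul (VV_hom k)
  have e : 1 + (d + 1) + 1 = d + 3 := by ring
  rw [e] at h
  exact h.C_mul _

theorem ph_hom {d : ℕ} (hg : g.IsHomogeneous d) (hσ : ∀ i, (σ i).IsHomogeneous (d + 1))
    (l : Fin 6) : (ph T a b g σ l).IsHomogeneous (d + 4) := by
  refine IsHomogeneous.add ?_ ?_
  · refine IsHomogeneous.sum _ _ _ fun i _ => ?_
    have h := (BB_hom T a b).mul ((gU_hom g hg).mul (UU_hom i))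
    have e : 3 + (d + 1) = d + 4 := by ring
    rw [e] at h
    exact h.C_mul _
  · refine IsHomogeneous.sum _ _ _ fun i _ => ?_
    have h1 := (BB_hom T a b).mul (sU_hom σ hσ i)
    have h2 := (RR_hom T a b g σ hg hσ).mul (VV_hom i)
    have e : 3 + (d + 1) = d + 4 := by ring
    rw [e] at h1
    exact (h1.sub h2).C_mul _

variable (x y : Fin 3 → ((Fin 6 → ℂ) →ₗ[ℂ] ℂ))

/-- the denominator of the section in the six variables -/
noncomputable def gX : MvPolynomial (Fin 6) ℂ := aeval (fun i => linPoly (x i)) g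

/-- the numerators of the section in the six variables -/
noncomputable def sX (i : Fin 3) : MvPolynomial (Fin 6) ℂ := aeval (fun i => linPoly (x i)) (σ i)

/-- the direction -/
noncomputable def del (i : Fin 3) : MvPolynomial (Fin 6) ℂ := gX g x * linPoly (y i) - sX σ x i

/-- the inverse map -/
noncomputable def ps : Fin 5 → MvPolynomial (Fin 6) ℂ :=
  ![linPoly (x 0) * del g σ x y 0, linPoly (x 1) * del g σ x y 0, linPoly (x 2) * del g σ x y 0,
    linPoly (x 0) * del g σ x y 1, linPoly (x 0) * del g σ x y 2]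

/-- the polar form at the two points -/
noncomputable def KK : MvPolynomial (Fin 6) ℂ :=
  ∑ i, ∑ j, ∑ k, (C (2 * T (a i) (a j) (a k)) *
      (gX g x * (linPoly (x i) * linPoly (x j) * linPoly (x k))) +
    C (3 * T (a i) (a j) (b k)) * (linPoly (x i) * linPoly (x j) * sX σ x k) +
    C (3 * T (a i) (a j) (b k)) * (gX g x * (linPoly (x i) * linPoly (x j) * linPoly (y k))) +
    C (6 * T (a i) (b j) (b k)) * (linPoly (x i) * linPoly (y j) * sX σ x k))

theorem eval_gX (v : Fin 6 → ℂ) : eval v (gX g x) = eval (fun i => x i v) g := by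
  rw [gX, eval_aeval]
  simp only [eval_linPoly]

theorem eval_sX (i : Fin 3) (v : Fin 6 → ℂ) :
    eval v (sX σ x i) = eval (fun i => x i v) (σ i) := by
  rw [sX, eval_aeval]
  simp only [eval_linPoly]

theorem eval_del (i : Fin 3) (v : Fin 6 → ℂ) : eval v (del g σ x y i) =
    eval (fun i => x i v) g * y i v - eval (fun i => x i v) (σ i) := by
  rw [del, map_sub, map_mul, eval_gX, eval_sX, eval_linPoly]

theorem eval_ps (v : Fin 6 → ℂ) :
    (fun j => eval v (ps g σ x y j)) = ![x 0 v * eval v (del g σ x y 0),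
      x 1 v * eval v (del g σ x y 0), x 2 v * eval v (del g σ x y 0),
      x 0 v * eval v (del g σ x y 1), x 0 v * eval v (del g σ x y 2)] := by
  funext j
  fin_cases j <;> simp [ps, eval_linPoly]

theorem eval_KK (v : Fin 6 → ℂ) : eval v (KK T a b g σ x y) =
    2 * eval (fun i => x i v) g * T (pt a fun i => x i v) (pt a fun i => x i v)
      (pt a fun i => x i v) +
    3 * T (pt a fun i => x i v) (pt a fun i => x i v) (pt b fun i => eval (fun i => x i v) (σ i)) +
    3 * eval (fun i => x i v) g * T (pt a fun i => x i v) (pt a fun i => x i v)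
      (pt b fun i => y i v) +
    6 * T (pt a fun i => x i v) (pt b fun i => y i v)
      (pt b fun i => eval (fun i => x i v) (σ i)) := by
  simp only [KK, pt, Fin.sum_univ_three, map_add, map_mul, eval_C, map_smul,
    LinearMap.add_apply, LinearMap.smul_apply, smul_eq_mul, eval_linPoly, eval_gX, eval_sX]
  ring

theorem del_hom {d : ℕ} (hg : g.IsHomogeneous d) (hσ : ∀ i, (σ i).IsHomogeneous (d + 1))
    (i : Fin 3) : (del g σ x y i).IsHomogeneous (d + 1) := by
  have h1 := hg.aeval (fun i => linPoly (x i)) (fun i => linPoly_hom _)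
  have h2 := (hσ i).aeval (fun i => linPoly (x i)) (fun i => linPoly_hom _)
  rw [one_mul] at h1 h2
  exact (h1.mul (linPoly_hom (y i))).sub h2

theorem ps_hom {d : ℕ} (hg : g.IsHomogeneous d) (hσ : ∀ i, (σ i).IsHomogeneous (d + 1))
    (j : Fin 5) : (ps g σ x y j).IsHomogeneous (d + 2) := by
  have e : 1 + (d + 1) = d + 2 := by ring
  have key : ∀ (l : (Fin 6 → ℂ) →ₗ[ℂ] ℂ) (i : Fin 3),
      (linPoly l * del g σ x y i).IsHomogeneous (d + 2) := by
    intro l i
    rw [← e]
    exact (linPoly_hom l).mul (del_hom g σ x y hg hσ i)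
  fin_cases j <;> exact key _ _

end

end Vale.Agent.P287.H583
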