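import Vale.Agent.P287.H583.SecRat

/-!
A smooth cubic fourfold which contains a plane, and for which the projection from the plane has
a rational section, is rational.
-/

namespace Vale.Agent.P287.H583

open MvPolynomial Vale.Agent.P287.H674

theorem F_split {F : MvPolynomial (Fin 6) ℂ}
    {T : (Fin 6 → ℂ) →ₗ[ℂ] (Fin 6 → ℂ) →ₗ[ℂ] (Fin 6 → ℂ) →ₗ[ℂ] ℂ}
    (s1 : ∀ x y z, T x y z = T y x z) (s2 : ∀ x y z, T x y z = T x z y)
    (hT : ∀ v, eval v F = T v v v) {a b : Fin 3 → (Fin 6 → ℂ)}
    (hq : ∀ c, T (pt b c) (pt b c) (pt b c) = 0) (c e : Fin 3 → ℂ) :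
    eval (pt a c + pt b e) F = T (pt a c) (pt a c) (pt a c) +
      3 * T (pt a c) (pt a c) (pt b e) + 3 * T (pt a c) (pt b e) (pt b e) := by
  have e2 := hq e
  rw [hT]
  generalize pt a c = u at *
  generalize pt b e = w at *
  simp only [map_add, LinearMap.add_apply]
  have a1 : T u w u = T u u w := s2 _ _ _
  have a2 : T w u u = T u u w := by rw [s1, s2]
  have a3 : T w u w = T u w w := s1 _ _ _
  have a4 : T w w u = T u w w := by rw [s2, s1]
  rw [a1, a2, a3, a4]
  linear_combination e2

theorem section_core {F : MvPolynomial (Fin 6) ℂ}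
    {T : (Fin 6 → ℂ) →ₗ[ℂ] (Fin 6 → ℂ) →ₗ[ℂ] (Fin 6 → ℂ) →ₗ[ℂ] ℂ}
    (s1 : ∀ x y z, T x y z = T y x z) (s2 : ∀ x y z, T x y z = T x z y)
    (hT : ∀ v, eval v F = T v v v)
    {a b : Fin 3 → (Fin 6 → ℂ)} {x y : Fin 3 → ((Fin 6 → ℂ) →ₗ[ℂ] ℂ)}
    (hv : ∀ v : Fin 6 → ℂ, v = pt a (fun i => x i v) + pt b (fun i => y i v))
    (hx : ∀ (c d : Fin 3 → ℂ) i, x i (pt a c + pt b d) = c i)
    (hy : ∀ (c d : Fin 3 → ℂ) i, y i (pt a c + pt b d) = d i)
    (hq : ∀ c, T (pt b c) (pt b c) (pt b c) = 0)
    {g : MvPolynomial (Fin 3) ℂ} {σ : Fin 3 → MvPolynomial (Fin 3) ℂ} {d : ℕ}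
    (hg : g.IsHomogeneous d) (hσ : ∀ i, (σ i).IsHomogeneous (d + 1)) (hg0 : g ≠ 0)
    (E1 : ∀ t : Fin 3 → ℂ, (eval t g) ^ 2 * T (pt a t) (pt a t) (pt a t) +
      3 * eval t g * T (pt a t) (pt a t) (pt b fun i => eval t (σ i)) +
      3 * T (pt a t) (pt b fun i => eval t (σ i)) (pt b fun i => eval t (σ i)) = 0)
    (hB : BB T a b ≠ 0) (hR : RR T a b g σ ≠ 0) : RationalHypersurface F := by
  have hF2 := F_split s1 s2 hT (a := a) hq
  have hgU : gU g ≠ 0 := by
    obtain ⟨t, ht⟩ : ∃ t : Fin 3 → ℂ, eval t g ≠ 0 := by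
      by_contra hcon
      push Not at hcon
      exact hg0 (MvPolynomial.funext fun t => by rw [hcon t, map_zero])
    intro h0
    have h1 := eval_gU g ![t 0, t 1, t 2, 0, 0]
    rw [h0, map_zero] at h1
    have h2 : (fun i => eval ![t 0, t 1, t 2, 0, 0] (UU i)) = t := by
      funext i
      fin_cases i <;> simp [UU]
    rw [h2] at h1
    exact ht h1.symm
  have c1 : aeval (ph T a b g σ) F = 0 := by
    refine MvPolynomial.funext fun t => ?_
    have e1 : eval t (BB T a b) = 3 * T (pt a fun i => eval t (UU i))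
      (pt b fun i => eval t (VV i)) (pt b fun i => eval t (VV i)) := eval_BB T a b t
    have e2 := eval_RR T a b g σ t
    have e3 := E1 (fun i => eval t (UU i))
    rw [← eval_gU g t] at e3
    simp only [← eval_sU σ] at e3
    rw [eval_aeval, eval_ph, hF2, map_zero]
    generalize eval t (BB T a b) = τ at *
    generalize eval t (gU g) = G at *
    generalize eval t (RR T a b g σ) = ρ at *
    have k1 : (pt a fun i => τ * (G * eval t (UU i))) = (τ * G) • pt a fun i => eval t (UU i) := by
      rw [pt_smul']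
      congr 1
      funext i
      ring
    have k2 : (pt b fun i => τ * eval t (sU σ i) - ρ * eval t (VV i)) =
        τ • (pt b fun i => eval t (sU σ i)) - ρ • (pt b fun i => eval t (VV i)) := by
      rw [pt_smul', pt_smul', pt_sub]
    rw [k1, k2]
    generalize (pt a fun i => eval t (UU i)) = A at *
    generalize (pt b fun i => eval t (sU σ i)) = S at *
    generalize (pt b fun i => eval t (VV i)) = V at *
    have k3 : T A V S = T A S V := s2 _ _ _
    simp only [map_smul, map_sub, LinearMap.smul_apply, LinearMap.sub_apply, smul_eq_mul, k3]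
    linear_combination (τ ^ 3 * G) * e3 + (τ ^ 2 * G * ρ) * e2 - (τ * G * ρ ^ 2) * e1
  have c4 : ∀ j, aeval (ph T a b g σ) (ps g σ x y j) =
      -((BB T a b) ^ (d + 1) * (gU g) ^ (d + 2) * RR T a b g σ * X 0) * X j := by
    intro j
    refine MvPolynomial.funext fun t => ?_
    rw [eval_aeval, eval_ph]
    have h1 := congrFun (eval_ps g σ x y
      (pt a (fun i => eval t (BB T a b) * (eval t (gU g) * eval t (UU i))) +
      pt b (fun i => eval t (BB T a b) * eval t (sU σ i) -
        eval t (RR T a b g σ) * eval t (VV i)))) j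
    rw [h1]
    have k1 : (fun i => eval t (BB T a b) * (eval t (gU g) * eval t (UU i))) =
        fun i => (eval t (BB T a b) * eval t (gU g)) * eval t (UU i) := by
      funext i; ring
    have k2 : ∀ (P : MvPolynomial (Fin 3) ℂ) (n : ℕ), P.IsHomogeneous n →
        eval (fun i => eval t (BB T a b) * (eval t (gU g) * eval t (UU i))) P =
        (eval t (BB T a b) * eval t (gU g)) ^ n * eval (fun i => eval t (UU i)) P := by
      intro P n hP
      rw [k1, eval_mul_left hP]
    simp only [eval_del, hx, hy, k2 _ _ hg, k2 _ _ (hσ _), map_mul, map_neg, map_pow, eval_X,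
      eval_sU]
    rw [← eval_gU g t]
    have e3 : eval t (VV 0) = t 0 := by simp [VV]
    have e4 : eval t (VV 1) = t 3 := by simp [VV]
    have e5 : eval t (VV 2) = t 4 := by simp [VV]
    have f3 : eval t (UU 0) = t 0 := by simp [UU]
    have f4 : eval t (UU 1) = t 1 := by simp [UU]
    have f5 : eval t (UU 2) = t 2 := by simp [UU]
    rw [e3, e4, e5, f3, f4, f5]
    fin_cases j <;> simp <;> ring
  have c5 : ∀ i, aeval (ps g σ x y) (ph T a b g σ i) -
      (-((del g σ x y 0) ^ (d + 2) * linPoly (x 0) ^ 2 * (gX g x) ^ 2 * KK T a b g σ x y)) * X i =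
      F * ((del g σ x y 0) ^ (d + 2) * linPoly (x 0) ^ 2 * (gX g x) ^ 2 *
        (gX g x * ∑ k, C (a k i) * linPoly (x k) + ∑ k, C (b k i) * sX σ x k)) := by
    intro i
    refine MvPolynomial.funext fun v => ?_
    have h3 : (fun i => eval (fun j => eval v (ps g σ x y j)) (UU i)) =
        fun i => eval v (del g σ x y 0) * x i v := by
      funext i
      rw [eval_ps]
      fin_cases i <;> simp only [UU, Fin.zero_eta, Fin.mk_one, Fin.reduceFinMk, Matrix.cons_val,
        eval_X] <;> ring
    have h4 : (fun i => eval (fun j => eval v (ps g σ x y j)) (VV i)) =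
        fun i => x 0 v * eval v (del g σ x y i) := by
      funext i
      rw [eval_ps]
      fin_cases i <;> simp only [VV, Fin.zero_eta, Fin.mk_one, Fin.reduceFinMk, Matrix.cons_val,
        eval_X]
    have h5 := hF2 (fun i => x i v) (fun i => y i v)
    rw [← hv v] at h5
    have h8 : eval v (∑ k, C (a k i) * linPoly (x k)) = pt a (fun i => x i v) i := by
      simp only [pt, Fin.sum_univ_three, map_add, map_mul, eval_C, eval_linPoly, Pi.add_apply,
        Pi.smul_apply, smul_eq_mul]
      ring
    have h8' : eval v (∑ k, C (b k i) * sX σ x k) =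
        pt b (fun j => eval (fun i => x i v) (σ j)) i := by
      simp only [pt, Fin.sum_univ_three, map_add, map_mul, eval_C, eval_sX, Pi.add_apply,
        Pi.smul_apply, smul_eq_mul]
      ring
    have h9 : v i = pt a (fun i => x i v) i + pt b (fun i => y i v) i := congrFun (hv v) i
    have e3 := E1 (fun i => x i v)
    rw [map_sub, eval_aeval]
    simp only [map_mul, map_neg, map_pow, map_add, eval_linPoly, eval_X, eval_KK, h8, h8', eval_gX]
    rw [h5, h9]
    have hd : (pt b fun i => eval v (del g σ x y i)) =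
        eval (fun i => x i v) g • (pt b fun i => y i v) -
          (pt b fun j => eval (fun i => x i v) (σ j)) := by
      rw [pt_smul', ← pt_sub]
      congr 1
      funext k
      rw [eval_del]
    have hp := congrFun (eval_ph T a b g σ (fun j => eval v (ps g σ x y j))) i
    have h1 : eval (fun j => eval v (ps g σ x y j)) (BB T a b) =
      3 * T (pt a fun i => eval (fun j => eval v (ps g σ x y j)) (UU i))
      (pt b fun i => eval (fun j => eval v (ps g σ x y j)) (VV i))
      (pt b fun i => eval (fun j => eval v (ps g σ x y j)) (VV i)) := eval_BB T a b _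
    have h2 := eval_RR T a b g σ (fun j => eval v (ps g σ x y j))
    have hG := eval_gU g (fun j => eval v (ps g σ x y j))
    have hS : (fun k => eval (fun j => eval v (ps g σ x y j)) (sU σ k)) =
        fun k => eval v (del g σ x y 0) ^ (d + 1) * eval (fun i => x i v) (σ k) := by
      funext k
      rw [eval_sU, h3, eval_mul_left (hσ k)]
    rw [h3, eval_mul_left hg] at hG
    have h6 := congrFun h3
    have h7 := congrFun h4
    have h6' := congrFun hS
    rw [h3, h4] at h1 h2
    rw [hS, hG] at h2
    simp only [h6, h7, h6', hG] at hp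
    generalize (fun j => eval v (ps g σ x y j)) = z at *
    generalize eval v (del g σ x y 0) = δ at *
    rw [pt_smul, pt_smul, hd] at h1
    rw [pt_smul, pt_smul, pt_smul, hd] at h2
    have k1 : (pt a fun k => eval z (BB T a b) * (δ ^ d * eval (fun i => x i v) g * (δ * x k v))) =
        (eval z (BB T a b) * (δ ^ (d + 1) * eval (fun i => x i v) g)) • pt a (fun i => x i v) := by
      rw [pt_smul']; congr 1; funext k; ring
    have k2 : (pt b fun k => eval z (BB T a b) * (δ ^ (d + 1) * eval (fun i => x i v) (σ k)) -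
        eval z (RR T a b g σ) * (x 0 v * eval v (del g σ x y k))) =
        (eval z (BB T a b) * δ ^ (d + 1)) • (pt b fun k => eval (fun i => x i v) (σ k)) -
        (eval z (RR T a b g σ) * x 0 v) • (eval (fun i => x i v) g • (pt b fun i => y i v) -
          (pt b fun j => eval (fun i => x i v) (σ j))) := by
      rw [← hd, pt_smul', pt_smul', ← pt_sub]
      congr 1
      funext k
      ring
    rw [k1, k2] at hp
    rw [hp]
    generalize eval z (BB T a b) = τ at *
    generalize eval z (RR T a b g σ) = ρ at *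
    generalize eval (fun i => x i v) g = G at *
    generalize (pt b fun j => eval (fun i => x i v) (σ j)) = S at *
    generalize (pt a fun i => x i v) = A at *
    generalize (pt b fun i => y i v) = Y at *
    have t1 : T A S Y = T A Y S := s2 _ _ _
    simp only [map_smul, map_sub, LinearMap.smul_apply, LinearMap.sub_apply, smul_eq_mul,
      Pi.smul_apply, Pi.add_apply, Pi.sub_apply, t1] at h1 h2 ⊢
    rw [h1, h2]
    linear_combination (δ ^ (d + 2) * x 0 v ^ 2 * ((G * A i + S i) + 2 * (G * Y i - S i))) * e3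
  refine rational_of_maps (d := d + 4) (e := d + 2) (by omega) (ph T a b g σ) (ps g σ x y) _
    (-((del g σ x y 0) ^ (d + 2) * linPoly (x 0) ^ 2 * (gX g x) ^ 2 * KK T a b g σ x y))
    (ph_hom T a b g σ hg hσ) (ps_hom g σ x y hg hσ) c1 ?_ c4 (fun i => ⟨_, c5 i⟩)
  exact neg_ne_zero.mpr (mul_ne_zero (mul_ne_zero (mul_ne_zero (pow_ne_zero _ hB)
    (pow_ne_zero _ hgU)) hR) (X_ne_zero 0))

end Vale.Agent.P287.H583
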